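import Vale.Agent.P011.D4Y.H837.Uni
import Vale.Agent.P011.D4Y.H64.Odd

/-!
Block D4Y: a place of odd local degree which is not alone over the ground field has degree one: the
ground field is dense.
-/

open NumberField IsDedekindDomain
open WithZero

namespace Vale.Agent.P011.D4Y.H837

open Vale.Agent.P011.Arith Vale.Agent.P011.MPQ Vale.Agent.P011.D4 Vale.Agent.P011.D4X

section sep

variable {L : Type} [Field L] [NumberField L]

/-- Separation of two places by an integer. -/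
theorem exists_sep {w w2 : HeightOneSpectrum (𝓞 L)} (hne : w2 ≠ w) (N : ℕ) :
    ∃ u : 𝓞 L, w.valuation L (1 - (u : L)) ≤ exp (-(N : ℤ)) ∧
      w2.valuation L (u : L) ≤ exp (-(N : ℤ)) := by
  have h1 : IsCoprime w.asIdeal w2.asIdeal := by
    apply Ideal.isCoprime_iff_sup_eq.2
    exact w.isMaximal.coprime_of_ne w2.isMaximal fun h => hne (HeightOneSpectrum.ext h.symm)
  obtain ⟨i, hi, j, hj, hij⟩ := Ideal.isCoprime_iff_exists.1 (h1.pow (m := N) (n := N))
  refine ⟨j, ?_, ?_⟩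
  · have e : (1 : L) - (j : L) = algebraMap (𝓞 L) L i := by
      have h2 := congrArg (fun x : 𝓞 L => (x : L)) hij
      have h3 : ((i + j : 𝓞 L) : L) = (i : L) + (j : L) := rfl
      have h4 : ((1 : 𝓞 L) : L) = 1 := rfl
      rw [sub_eq_iff_eq_add, ← h4, ← hij]
      rfl
    rw [e, w.valuation_of_algebraMap]
    exact (w.intValuation_le_pow_iff_mem i N).2 hi
  · change w2.valuation L (algebraMap (𝓞 L) L j) ≤ _
    rw [w2.valuation_of_algebraMap]
    exact (w2.intValuation_le_pow_iff_mem j N).2 hj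

/-- Small negative powers. -/
theorem exists_N {γ : Z0} (hγ : γ ≠ 0) : ∃ N : ℕ, exp (-(N : ℤ)) < γ := by
  refine ⟨(WithZero.log γ).natAbs + 1, ?_⟩
  conv_rhs => rw [← WithZero.exp_log hγ]
  rw [WithZero.exp_lt_exp]
  omega

end sep

section dens

variable {k L E : Type} [Field k] [NumberField k] [Field L] [NumberField L] [Field E]
  [Algebra k L] [Algebra k E] [Algebra L E] [IsScalarTower k L E]

/-- Small elements of the ground field. -/
theorem exists_pi (w : HeightOneSpectrum (𝓞 L)) (v : HeightOneSpectrum (𝓞 k))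
    (hw : w.asIdeal.comap (algebraMap (𝓞 k) (𝓞 L)) = v.asIdeal) {γ : Z0} (hγ : γ ≠ 0) :
    ∃ π : k, π ≠ 0 ∧ w.valuation L (algebraMap k L π) < γ := by
  obtain ⟨N, hN⟩ := exists_N hγ
  obtain ⟨π, hπ⟩ := v.valuation_exists_uniformizer k
  have hπ0 : π ≠ 0 := by
    rintro rfl
    rw [map_zero] at hπ
    exact WithZero.exp_ne_zero hπ.symm
  have h1 : w.valuation L (algebraMap k L π) < 1 := by
    have h2 := (val_lt_val_iff hw (x := π) (y := 1)).2 (by
      rw [hπ, map_one, ← WithZero.exp_zero, WithZero.exp_lt_exp]; omega)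
    rwa [map_one, map_one] at h2
  have h3 : w.valuation L (algebraMap k L π) ≤ exp (-1 : ℤ) := by
    have h0 : w.valuation L (algebraMap k L π) ≠ 0 :=
      (Valuation.ne_zero_iff _).2 ((map_ne_zero _).2 hπ0)
    obtain ⟨j, hj⟩ : ∃ j : ℤ, w.valuation L (algebraMap k L π) = WithZero.exp j :=
      ⟨WithZero.log _, (WithZero.exp_log h0).symm⟩
    rw [hj] at h1 ⊢
    rw [← WithZero.exp_zero, WithZero.exp_lt_exp] at h1
    rw [WithZero.exp_le_exp]
    omega
  refine ⟨π ^ N, pow_ne_zero _ hπ0, lt_of_le_of_lt ?_ hN⟩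
  rw [map_pow, map_pow]
  calc _ ≤ (exp (-1 : ℤ)) ^ N := pow_le_pow_left' h3 N
    _ = exp (-(N : ℤ)) := by
      rw [← WithZero.exp_nsmul]
      congr 1
      simp

omit [NumberField k] [NumberField L] in
/-- An element of the cubic field is a root of its characteristic polynomial. -/
theorem cubic {ρ : E ≃ₐ[k] E} {z : L} {t1 t2 t3 : k}
    (h1 : algebraMap k E t1 = algebraMap L E z + ρ (algebraMap L E z) + ρ (ρ (algebraMap L E z)))
    (h2 : algebraMap k E t2 = algebraMap L E z * ρ (algebraMap L E z) +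
      ρ (algebraMap L E z) * ρ (ρ (algebraMap L E z)) +
      ρ (ρ (algebraMap L E z)) * algebraMap L E z)
    (h3 : algebraMap k E t3 = algebraMap L E z * ρ (algebraMap L E z) *
      ρ (ρ (algebraMap L E z))) :
    algebraMap k L t3 = z * (z ^ 2 - algebraMap k L t1 * z + algebraMap k L t2) := by
  apply (algebraMap L E).injective
  have e : ∀ t : k, algebraMap L E (algebraMap k L t) = algebraMap k E t := fun t =>
    (IsScalarTower.algebraMap_apply k L E t).symm
  rw [map_mul, map_add, map_sub, map_mul, map_pow, e, e, e, h1, h2, h3]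
  ring

variable {ρ σ ι : E ≃ₐ[k] E} {α : E} {a b c : kˣ} {q : Lˣ} (H : HyI ρ σ ι α a b c q)

include H

/-- Density, for integers. -/
theorem dens_int {w w2 : HeightOneSpectrum (𝓞 L)} {v : HeightOneSpectrum (𝓞 k)}
    (hw : w.asIdeal.comap (algebraMap (𝓞 k) (𝓞 L)) = v.asIdeal)
    (hw2 : w2.asIdeal.comap (algebraMap (𝓞 k) (𝓞 L)) = v.asIdeal) (hne : w2 ≠ w)
    (hO : OddP w v) (θ : 𝓞 L) {ε : Z0} (hε : ε ≠ 0) :
    ∃ y' : k, w.valuation L (algebraMap k L y' - (θ : L)) < ε := by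
  by_cases hθ : (θ : L) = 0
  · refine ⟨0, ?_⟩
    rw [map_zero, hθ, sub_zero, map_zero]
    exact zero_lt_iff.2 hε
  set V := w.valuation L with hV
  have hθv : V (θ : L) ≠ 0 := (Valuation.ne_zero_iff _).2 hθ
  have hθ1 : V (θ : L) ≤ 1 := w.valuation_le_one θ
  have h2 : V (2 : L) ≠ 0 := val_two_ne _
  have h4 : V (4 : L) ≠ 0 := val_four_ne _
  -- the bound for the square
  obtain ⟨δ, hδ⟩ : ∃ δ : Z0, δ = V 2 * ε := ⟨_, rfl⟩
  have hδ0 : δ ≠ 0 := by rw [hδ]; exact mul_ne_zero h2 hε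
  obtain ⟨π, hπ0, hπ⟩ := exists_pi w v hw (γ := δ ^ 2 * V (θ : L))
    (mul_ne_zero (pow_ne_zero 2 hδ0) hθv)
  have hπL : algebraMap k L π ≠ 0 := (map_ne_zero _).2 hπ0
  obtain ⟨N1, hN1⟩ := exists_N (γ := w2.valuation L (algebraMap k L π))
    ((Valuation.ne_zero_iff _).2 hπL)
  obtain ⟨N2, hN2⟩ := exists_N hε
  obtain ⟨u, hu1, hu2⟩ := exists_sep hne (max (max N1 N2) 1)
  have hmax1 : (exp (-((max (max N1 N2) 1 : ℕ) : ℤ)) : Z0) ≤ exp (-(N1 : ℤ)) := by
    rw [WithZero.exp_le_exp]; omega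
  have hmax2 : (exp (-((max (max N1 N2) 1 : ℕ) : ℤ)) : Z0) ≤ exp (-(N2 : ℤ)) := by
    rw [WithZero.exp_le_exp]; omega
  have hmax3 : (exp (-((max (max N1 N2) 1 : ℕ) : ℤ)) : Z0) < 1 := by
    rw [← WithZero.exp_zero, WithZero.exp_lt_exp]; omega
  -- the new element
  obtain ⟨z, hz⟩ : ∃ z : 𝓞 L, z = u * θ := ⟨_, rfl⟩
  have hz' : (z : L) = u * θ := by rw [hz]; rfl
  have hzθ : V ((z : L) - θ) < ε := by
    have e : (z : L) - θ = -((1 - (u : L)) * θ) := by rw [hz']; ring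
    rw [e, Valuation.map_neg, map_mul]
    calc _ ≤ exp (-((max (max N1 N2) 1 : ℕ) : ℤ)) * 1 := mul_le_mul' hu1 hθ1
      _ < ε := by rw [mul_one]; exact lt_of_le_of_lt hmax2 hN2
  have hu : V (u : L) = 1 := by
    have h5 : V ((1 : L) + -(1 - (u : L))) = 1 := Valuation.map_one_add_of_lt _ (by
      rw [Valuation.map_neg]
      exact lt_of_le_of_lt hu1 hmax3)
    have e : (1 : L) + -(1 - (u : L)) = u := by ring
    rwa [e] at h5
  have hzv : V (z : L) = V (θ : L) := by rw [hz', map_mul, hu, one_mul]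
  have hz0 : (z : L) ≠ 0 := by
    intro h
    rw [h, map_zero] at hzv
    exact hθv hzv.symm
  -- the characteristic polynomial
  obtain ⟨t1, ht1⟩ := exists_sym1 H (z : L)
  obtain ⟨t2, ht2⟩ := exists_sym2 H (z : L)
  obtain ⟨t3, ht3⟩ := exists_sym3 H (z : L)
  have hcub := cubic ht1 ht2 ht3
  have c0 : ((algebraMap (𝓞 L) (𝓞 E) z : 𝓞 E) : E) = algebraMap L E z := rfl
  obtain ⟨T1, hT1, -⟩ := exists_int (t := t1) (T := algebraMap (𝓞 L) (𝓞 E) z +
    gE ρ (algebraMap (𝓞 L) (𝓞 E) z) + gE ρ (gE ρ (algebraMap (𝓞 L) (𝓞 E) z))) (by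
      simp only [coeA, coe_gE, c0, ht1])
  obtain ⟨T2, hT2, -⟩ := exists_int (t := t2) (T := algebraMap (𝓞 L) (𝓞 E) z *
    gE ρ (algebraMap (𝓞 L) (𝓞 E) z) + gE ρ (algebraMap (𝓞 L) (𝓞 E) z) *
    gE ρ (gE ρ (algebraMap (𝓞 L) (𝓞 E) z)) + gE ρ (gE ρ (algebraMap (𝓞 L) (𝓞 E) z)) *
    algebraMap (𝓞 L) (𝓞 E) z) (by
      simp only [coeA, coeM, coe_gE, c0, ht2])
  -- `t3` is small
  have h3w2 : w2.valuation L (algebraMap k L t3) < w2.valuation L (algebraMap k L π) := by
    rw [hcub, map_mul]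
    have e1 : w2.valuation L ((z : L) ^ 2 - algebraMap k L t1 * z + algebraMap k L t2) ≤ 1 := by
      have e2 : (z : L) ^ 2 - algebraMap k L t1 * z + algebraMap k L t2 =
          algebraMap (𝓞 L) L (z ^ 2 - algebraMap (𝓞 k) (𝓞 L) T1 * z +
            algebraMap (𝓞 k) (𝓞 L) T2) := by
        rw [map_add, map_sub, map_mul, map_pow, ← hT1, ← hT2]
        rfl
      rw [e2]
      exact w2.valuation_le_one _
    have e3 : w2.valuation L (z : L) ≤ exp (-((max (max N1 N2) 1 : ℕ) : ℤ)) := by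
      rw [hz', map_mul]
      calc _ ≤ exp (-((max (max N1 N2) 1 : ℕ) : ℤ)) * 1 :=
            mul_le_mul' hu2 (w2.valuation_le_one θ)
        _ = _ := mul_one _
    calc _ ≤ exp (-((max (max N1 N2) 1 : ℕ) : ℤ)) * 1 := mul_le_mul' e3 e1
      _ ≤ exp (-(N1 : ℤ)) := by rw [mul_one]; exact hmax1
      _ < _ := hN1
  have h3v : v.valuation k t3 < v.valuation k π := (val_lt_val_iff hw2 _ _).1 h3w2
  have h3w : V (algebraMap k L t3) < δ ^ 2 * V (θ : L) :=
    lt_trans ((val_lt_val_iff hw _ _).2 h3v) hπ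
  -- the discriminant
  obtain ⟨s, hs⟩ : ∃ s : L, s = 2 * z - algebraMap k L t1 := ⟨_, rfl⟩
  obtain ⟨x, hx⟩ : ∃ x : k, x = t1 ^ 2 - 4 * t2 := ⟨_, rfl⟩
  have hsx : s ^ 2 - algebraMap k L x = 4 * (algebraMap k L t3 / z) := by
    rw [hcub, hs, hx, map_sub, map_mul, map_pow, map_ofNat]
    field_simp
    ring
  have h5 : V (algebraMap k L t3 / z) < δ ^ 2 := by
    rw [map_div₀, hzv, div_lt_iff₀ (zero_lt_iff.2 hθv)]
    exact h3w
  have h6 : V (s ^ 2 - algebraMap k L x) < V 4 * δ ^ 2 := by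
    rw [hsx, map_mul]
    exact mul_lt_mul_of_pos_left h5 (zero_lt_iff.2 h4)
  -- if `t` is near `s` then we have won
  have win : ∀ t : k, V (s - algebraMap k L t) < δ → ∃ y' : k,
      V (algebraMap k L y' - (θ : L)) < ε := by
    intro t ht
    refine ⟨(t1 + t) / 2, ?_⟩
    have e : algebraMap k L ((t1 + t) / 2) - (θ : L) = -((s - algebraMap k L t) / 2) +
        ((z : L) - θ) := by
      rw [map_div₀, map_add, map_ofNat, hs]
      ring
    rw [e]
    refine Valuation.map_add_lt _ ?_ hzθ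
    rw [Valuation.map_neg, map_div₀, div_lt_iff₀ (zero_lt_iff.2 h2), mul_comm, ← hδ]
    exact ht
  by_cases hsd : V s < δ
  · exact win 0 (by rw [map_zero, sub_zero]; exact hsd)
  have hsd' : δ ≤ V s := not_lt.1 hsd
  have hs0 : s ≠ 0 := by
    rintro h
    rw [h, map_zero] at hsd'
    exact hδ0 (le_zero_iff.1 hsd')
  have hsv : V s ≠ 0 := (Valuation.ne_zero_iff _).2 hs0
  have h7 : V (algebraMap k L x / s ^ 2 - 1) < V 4 := by
    have e : algebraMap k L x / s ^ 2 - 1 = -((s ^ 2 - algebraMap k L x) / s ^ 2) := by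
      field_simp
      ring
    rw [e, Valuation.map_neg, map_div₀, div_lt_iff₀ (zero_lt_iff.2 (by
      rw [map_pow]; exact pow_ne_zero 2 hsv))]
    refine lt_of_lt_of_le h6 (mul_le_mul_right ?_ _)
    rw [map_pow]
    exact pow_le_pow_left' hsd' 2
  have hx0 : x ≠ 0 := by
    rintro h
    rw [h, map_zero, zero_div, zero_sub, Valuation.map_neg, map_one] at h7
    exact absurd (val_four_le V) (not_le.2 h7)
  have hxLS : Units.mk0 x hx0 ∈ LS (v.valuation k) := by
    apply hO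
    exact ⟨Units.mk0 s hs0, h7⟩
  have hxL : algebraMap k L x ≠ 0 := (map_ne_zero _).2 hx0
  obtain ⟨π', hπ'0, hπ'⟩ := exists_pi w v hw (γ := min 1 (δ ^ 2 / V (algebraMap k L x))) (by
    intro h
    rcases min_choice (1 : Z0) (δ ^ 2 / V (algebraMap k L x)) with h' | h'
    · rw [h'] at h; exact one_ne_zero h
    · rw [h'] at h
      exact (div_ne_zero (pow_ne_zero 2 hδ0) ((Valuation.ne_zero_iff _).2 hxL)) h)
  obtain ⟨y, hy⟩ := LS_newton' hxLS (γ := v.valuation k π') ((Valuation.ne_zero_iff _).2 hπ'0)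
  have hy0 : (y : k) ≠ 0 := y.ne_zero
  have hyL : algebraMap k L (y : k) ≠ 0 := (map_ne_zero _).2 hy0
  have h8 : V (algebraMap k L x / (algebraMap k L (y : k)) ^ 2 - 1) <
      min 1 (δ ^ 2 / V (algebraMap k L x)) := by
    refine lt_trans ?_ hπ'
    have e : algebraMap k L x / (algebraMap k L (y : k)) ^ 2 - 1 =
        algebraMap k L (((Units.mk0 x hx0 : kˣ) : k) / (y : k) ^ 2 - 1) := by
      rw [map_sub, map_div₀, map_pow, map_one, Units.val_mk0]
    rw [e]
    exact (val_lt_val_iff hw _ _).2 hy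
  have h9 : V (algebraMap k L x / (algebraMap k L (y : k)) ^ 2) = 1 := by
    have h10 := Valuation.map_one_add_of_lt V (lt_of_lt_of_le h8 (min_le_left _ _))
    have e : (1 : L) + (algebraMap k L x / (algebraMap k L (y : k)) ^ 2 - 1) =
        algebraMap k L x / (algebraMap k L (y : k)) ^ 2 := by ring
    rwa [e] at h10
  have h10 : V (algebraMap k L x - (algebraMap k L (y : k)) ^ 2) < δ ^ 2 := by
    have e : algebraMap k L x - (algebraMap k L (y : k)) ^ 2 =
        (algebraMap k L (y : k)) ^ 2 * (algebraMap k L x / (algebraMap k L (y : k)) ^ 2 - 1) := by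
      field_simp
    have e2 : V ((algebraMap k L (y : k)) ^ 2) = V (algebraMap k L x) := by
      rw [map_div₀, div_eq_one_iff_eq ((Valuation.ne_zero_iff _).2 (pow_ne_zero 2 hyL))] at h9
      exact h9.symm
    rw [e, map_mul, e2]
    have h11 := lt_of_lt_of_le h8 (min_le_right _ _)
    rwa [lt_div_iff₀ (zero_lt_iff.2 ((Valuation.ne_zero_iff _).2 hxL)), mul_comm] at h11
  have h11 : V (s - algebraMap k L (y : k)) * V (s - algebraMap k L (-(y : k))) < δ ^ 2 := by
    rw [← map_mul]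
    have e : (s - algebraMap k L (y : k)) * (s - algebraMap k L (-(y : k))) =
        (s ^ 2 - algebraMap k L x) + (algebraMap k L x - (algebraMap k L (y : k)) ^ 2) := by
      rw [map_neg]
      ring
    rw [e]
    refine Valuation.map_add_lt _ (lt_of_lt_of_le h6 ?_) h10
    calc V 4 * δ ^ 2 ≤ 1 * δ ^ 2 := mul_le_mul_left (val_four_le V) _
      _ = δ ^ 2 := one_mul _
  by_cases h12 : V (s - algebraMap k L (y : k)) < δ
  · exact win _ h12
  · refine win (-(y : k)) ?_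
    by_contra h13
    rw [sq] at h11
    exact absurd (mul_le_mul' (not_lt.1 h12) (not_lt.1 h13)) (not_le.2 h11)

/-- Density. -/
theorem dens_of_two {w w2 : HeightOneSpectrum (𝓞 L)} {v : HeightOneSpectrum (𝓞 k)}
    (hw : w.asIdeal.comap (algebraMap (𝓞 k) (𝓞 L)) = v.asIdeal)
    (hw2 : w2.asIdeal.comap (algebraMap (𝓞 k) (𝓞 L)) = v.asIdeal) (hne : w2 ≠ w)
    (hO : OddP w v) (y : L) {ε : Z0} (hε : ε ≠ 0) :
    ∃ y' : k, w.valuation L (algebraMap k L y' - y) < ε := by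
  obtain ⟨d, hd, hdy⟩ := ((IsFractionRing.isAlgebraic_iff ℤ ℚ L).2
    (Algebra.IsAlgebraic.isAlgebraic (R := ℚ) y)).exists_integral_multiple
  have hdL : (d : L) ≠ 0 := Int.cast_ne_zero.2 hd
  have hdk : (d : k) ≠ 0 := Int.cast_ne_zero.2 hd
  have hdv : w.valuation L (d : L) ≠ 0 := (Valuation.ne_zero_iff _).2 hdL
  obtain ⟨y', hy'⟩ := dens_int H hw hw2 hne hO (⟨d • y, hdy⟩ : 𝓞 L)
    (ε := w.valuation L (d : L) * ε) (mul_ne_zero hdv hε)
  refine ⟨y' / d, ?_⟩
  have e1 : ((⟨d • y, hdy⟩ : 𝓞 L) : L) = d * y := zsmul_eq_mul _ _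
  have e : algebraMap k L (y' / d) - y = (algebraMap k L y' - ((⟨d • y, hdy⟩ : 𝓞 L) : L)) / d := by
    rw [e1, map_div₀, map_intCast]
    field_simp
  rw [e, map_div₀, div_lt_iff₀ (zero_lt_iff.2 hdv), mul_comm ε]
  exact hy'

end dens

end Vale.Agent.P011.D4Y.H837
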